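import Vale.Agent.P167.H945.L.Abs
import Vale.Agent.P167.H718.Lam.Cut

/-!
# P167, general `q`, block Q-LAM (L-GEN): the general lower bound

`l_gen_core`: the general lower bound, for all small `ρ₀`.
-/

namespace Vale.Agent.P167.H945.L

open Finset
open Vale.Agent.P167.E6 (IsPolygon Encloses)
open Vale.Agent.P167.BR
open Vale.Agent.P167.FK (Bq Ex Good RSW cf)
open Vale.Agent.P167.FKA (Loc Ind Ex_mono Ex_congr Ex_const Ex_mul_left Ex_nonneg Ex_add Ex_sub)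
open Vale.Agent.P167.H562.QM (MajA OneC Nr)
open Vale.Agent.P167.H365.NQ (XW)
open Vale.Agent.P167.H975 (TX TX_loc ex_prod mx_ratio)
open Vale.Agent.P167.H167.Q (MxA Reg)
open Vale.Agent.P167.H192.Q (SRSW)
open Vale.Agent.P167.H718 (q_mem_sites)
open Vale.Agent.P167.H718.Lam (Pg L_gen)
open Vale.Agent.P167.H601.LG
open Vale.Agent.P167.H601.S2

variable {θ : ℝ}

/-- The situation. -/
theorem sit_of {X : Pg} {n : ℕ} {σ R : ℝ} (h : X.Ok n σ R) :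
    Sit n X.N ⌊σ * n⌋₊ ⌊σ * n⌋ X.q X.D X.k X.τ X.η :=
  ⟨h.geo, h.poly, h.enc, h.sep, h.reg.good, h.reg.one⟩

/-- Special indices. -/
theorem mem_sp' {X : Pg} {j : ℕ} : j ∈ X.sp ↔ j < X.N ∧ Spe X.τ X.k j := by
  classical
  unfold Pg.sp
  rw [mem_filter, mem_range]

/-- The local products with values `0`, `1` decrease. -/
theorem TX_anti {w : Finset Ed → ℝ} {D : Finset (ℤ × ℤ)} {c : ℤ × ℤ} {r r' : ℤ} {ω : Cfg}
    (hr : r' ≤ r) (h : TX w D c r ω = 0 ∨ TX w D c r ω = 1)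
    (h' : TX w D c r' ω = 0 ∨ TX w D c r' ω = 1) : TX w D c r ω ≤ TX w D c r' ω := by
  classical
  rcases h' with h' | h'
  · have h3 : TX w D c r ω = 0 := by
      unfold TX at h' ⊢
      rw [prod_eq_zero_iff] at h' ⊢
      obtain ⟨A, hA, hA0⟩ := h'
      rw [mem_filter] at hA
      exact ⟨A, mem_filter.2 ⟨hA.1, fun e he => Bq_sub hr (hA.2 e he)⟩, hA0⟩
    rw [h3, h']
  · rw [h']
    rcases h with h | h <;> rw [h]
    exact zero_le_one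

/-- The constant `s`. -/
theorem exists_s (h0 : 0 < θ) (h1 : θ ≤ Real.pi / 3) {c0 : ℝ} (hc0 : 0 < c0) (hc1 : c0 ≤ 1) :
    ∃ s : ℝ, 0 < s ∧ 1 / Real.sin θ + 1 / Real.sin (2 * θ) ≤ Real.exp (s / 2) ∧
      Real.exp (-(s / 4)) ≤ c0 := by
  have hA := one_le_A0 h0 h1
  set A := 1 / Real.sin θ + 1 / Real.sin (2 * θ) with hAd
  have hA0 : 0 < A := by linarith
  have hl : 0 ≤ Real.log A := Real.log_nonneg hA
  have hl' : Real.log c0 ≤ 0 := Real.log_nonpos hc0.le hc1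
  refine ⟨2 * Real.log A - 4 * Real.log c0 + 1, by linarith, ?_, ?_⟩
  · calc A = Real.exp (Real.log A) := (Real.exp_log hA0).symm
      _ ≤ _ := Real.exp_le_exp.2 (by linarith)
  · calc _ ≤ Real.exp (Real.log c0) := Real.exp_le_exp.2 (by linarith)
      _ = c0 := Real.exp_log hc0

theorem MajA.zone {A B : Finset (ℤ × ℤ)} (h : A ⊆ B) {d : ℝ} {ω : Cfg} {M : ℕ}
    (hM : MajA B d ω M) : MajA A d ω M := by
  intro 𝓕 k1 k2 k3
  refine hM 𝓕 k1 k2 fun γ hγ => ?_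
  obtain ⟨⟨e, he, he'⟩, k4⟩ := k3 γ hγ
  exact ⟨⟨e, he, h he'⟩, k4⟩

/-- Larger radius, for the points with positive weights. -/
theorem eT_P (h0 : 0 < θ) (h1 : θ ≤ Real.pi / 3) {n N L k : ℕ} {m₀ : ℤ} {q : ZMod N → ℤ × ℤ}
    {D : Finset (ℤ × ℤ)} {τ : ℕ → ℤ} {η : Cfg} {β : ℝ} (hS : Sit n N L m₀ q D k τ η)
    {c0 s : ℝ} (hc0 : 0 < c0) (hs : 0 < s)
    (hs0 : 1 / Real.sin θ + 1 / Real.sin (2 * θ) ≤ Real.exp (s / 2)) {j : ℕ}
    (hj : j < N ∧ Spe τ k j) {r r1 Z : ℤ} (hr1 : r ≤ r1) (h1Z : r1 ≤ Z) (hZn : 6 * Z < n)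
    (hZL : 4 * Z < L) (hw : Wl θ β q D k τ {j} c0 Z) {Nf : ℕ → Cfg → ℕ}
    (hN : ∀ ω, MajA (Bq (q (j : ZMod N)) Z) ((r : ℝ) / 16) ω (Nf j ω)) {Y : ℝ}
    (hY : Ex (2 * Real.cos θ) D η (fun ω => PT θ β q D k τ {j} r ω *
      Real.exp (s * ((∑ i ∈ {j}, Nf i ω : ℕ) : ℝ))) ≤
        Y * Ex (2 * Real.cos θ) D η (PT θ β q D k τ {j} r)) :
    Ex (2 * Real.cos θ) D η (PT θ β q D k τ {j} r1) ≤
      Y * Ex (2 * Real.cos θ) D η (PT θ β q D k τ {j} r) := by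
  have hcos : 1 / 2 ≤ Real.cos θ := by
    rw [← Real.cos_pi_div_three]
    exact Real.cos_le_cos_of_nonneg_of_le_pi h0.le (by linarith [Real.pi_pos]) h1
  have hQ0 : 0 < 2 * Real.cos θ := by linarith
  refine le_trans (Ex_mono hQ0 fun S _ => ?_) hY
  have h3 := PT_up h0 h1 hS hs0 hc0 (P := {j}) (fun i hi => by
    rw [mem_singleton] at hi
    rw [hi]
    exact hj) hr1 (by omega) (by omega) (hw.mono h1Z) (cf D η S)
    (Nf := fun i => Nf i (cf D η S)) (fun i hi => by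
    rw [mem_singleton] at hi
    rw [hi]
    exact MajA.zone (Bq_sub h1Z) (hN _))
  refine h3.trans ?_
  rw [mul_comm]
  refine mul_le_mul_of_nonneg_left (Real.exp_le_exp.2 ?_)
    ((hw.mono (hr1.trans h1Z)).pnonneg hc0.le _)
  refine mul_le_mul_of_nonneg_right (by linarith) (Nat.cast_nonneg _)

/-- **The general lower bound**, for all small `ρ₀`. The local products at the points of `Z` are
`0` or `1`. -/
theorem l_gen_core (h0 : 0 < θ) (h1 : θ ≤ Real.pi / 3) (hR : RSW (2 * Real.cos θ))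
    (hSR : SRSW (2 * Real.cos θ)) (σ R c₁ : ℝ) (hσ : 0 < σ) (hc₁ : 0 < c₁) (ρ₀ : ℝ)
    (hρ₀ : 0 < ρ₀) (hρσ : ρ₀ ≤ σ / 100) (hρ1 : ρ₀ ≤ 1 / 100) (ρ : ℝ) (hρ : 0 < ρ)
    (hρρ : ρ ≤ ρ₀) : ∃ ε : ℝ, 0 < ε ∧ ε ≤ ρ ∧ ∀ c₂ : ℝ, 0 < c₂ →
    ∃ (c : ℝ) (n₀ : ℕ), 0 < c ∧ ∀ n : ℕ, n₀ ≤ n → ∀ X : Pg, X.Ok n σ R → ∀ P Z : Finset ℕ,
    Disjoint P Z → P ∪ Z = X.sp →
    (∀ j ∈ P, ∀ ω, ∀ A ∈ pcs ω X.D, (∀ e ∈ A, hdv e ∈ Bq (X.q (j : ZMod X.N)) ⌊ρ₀ * n⌋) →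
      c₁ ≤ X.w θ A) →
    (∀ j ∈ Z, ∀ ω, ∀ r : ℤ, 1 ≤ r → r ≤ ⌊ρ₀ * n⌋ → X.T θ j r ω = 0 ∨ X.T θ j r ω = 1) →
    (∀ ω, 0 ≤ XW X.D (X.w θ) ω) →
    ∀ H : Cfg → ℝ, (∀ ω, 0 ≤ H ω ∧ H ω ≤ 1) →
      (∀ ω, H ω ≠ 0 → X.TZ θ Z ⌊ε * n⌋ ω ≠ 0 → ∀ A ∈ pcs ω X.D, c₁ ≤ X.w θ A) →
      (∀ F : Cfg → ℝ, (∀ ω, 0 ≤ F ω) →
        FKA.Loc (X.D ∩ P.biUnion fun j => Bq (X.q (j : ZMod X.N)) ⌊ε * n⌋) F →
        c₂ * X.E θ (fun ω => F ω * X.TZ θ Z ⌊ε * n⌋ ω) ≤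
          X.E θ (fun ω => F ω * X.TZ θ Z ⌊ε * n⌋ ω * H ω)) →
      c * ∏ j ∈ X.sp, X.eT θ j ⌊ρ * n⌋ ≤ X.eX θ := by
  have hcos : 1 / 2 ≤ Real.cos θ := by
    rw [← Real.cos_pi_div_three]
    exact Real.cos_le_cos_of_nonneg_of_le_pi h0.le (by linarith [Real.pi_pos]) h1
  have hQ : 1 ≤ 2 * Real.cos θ := by linarith
  have hQ0 : 0 < 2 * Real.cos θ := by linarith
  obtain ⟨c0, hc0d⟩ : ∃ c0 : ℝ, c0 = min c₁ 1 := ⟨_, rfl⟩
  have hc0 : 0 < c0 := by rw [hc0d]; exact lt_min hc₁ one_pos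
  have hc1 : c0 ≤ 1 := by rw [hc0d]; exact min_le_right _ _
  have hc01 : c0 ≤ c₁ := by rw [hc0d]; exact min_le_left _ _
  obtain ⟨s, hs, hs0, hs1⟩ := exists_s h0 h1 hc0 hc1
  obtain ⟨ms, hms⟩ := exists_nat_ge (2 * |R| / σ)
  obtain ⟨e, Cb, nb, he, hCb, Hb⟩ := exists_big hQ hR ms (R := |R|) (σ := σ) hρ₀ (abs_nonneg R)
    (by linarith)
  obtain ⟨Km, hKm, Hm⟩ := mx_ratio hQ hR hSR (ε := 1 / 2) (by norm_num)
  have hKm0 : 0 < Km := by linarith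
  obtain ⟨ε, hεd⟩ : ∃ ε : ℝ, ε = min (min ρ e) (ρ₀ / (2 * Km)) := ⟨_, rfl⟩
  have hε : 0 < ε := by
    rw [hεd]
    exact lt_min (lt_min hρ he) (by positivity)
  have hερ : ε ≤ ρ := by rw [hεd]; exact (min_le_left _ _).trans (min_le_left _ _)
  have hεe : ε ≤ e := by rw [hεd]; exact (min_le_left _ _).trans (min_le_right _ _)
  have hεK : ε ≤ ρ₀ / (2 * Km) := by rw [hεd]; exact min_le_right _ _
  rw [le_div_iff₀ (by positivity)] at hεK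
  obtain ⟨K, Y, hY, HP⟩ := exists_mom h0 h1 hR ms hc0 hc1 hs hs0 hs1 (Λ := 2 * ρ₀ / ε)
    (by positivity)
  refine ⟨ε, hε, hερ, fun c₂ hc₂ => ?_⟩
  obtain ⟨m, hm⟩ := exists_nat_ge (max 1 (2 * (Cb + 3 ^ ms * Y / s) / c₂))
  have hm1 : 1 ≤ m := by
    have : (1 : ℝ) ≤ m := (le_max_left _ _).trans hm
    exact_mod_cast this
  have hm2 : Cb + 3 ^ ms * Y / s ≤ c₂ / 2 * m := by
    have h3 := (le_max_right _ _).trans hm
    rw [div_le_iff₀ hc₂] at h3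
    linarith
  obtain ⟨n₀, hn₀⟩ := exists_nat_ge (max nb (2 * max K 2 / ε))
  have hY1 : 0 < max 1 Y := lt_max_of_lt_left one_pos
  refine ⟨c0 ^ m * (c₂ / 2) * ((1 / 2) ^ ms / max 1 Y ^ ms), n₀, by positivity, ?_⟩
  intro n hn X hX P Z hdis hPZ hwP hZ hXW H hH hH1 hH2
  -- the radii
  have hnn : (n₀ : ℝ) ≤ n := by exact_mod_cast hn
  have hn0 : (0 : ℝ) ≤ n := Nat.cast_nonneg n
  have hnb : nb ≤ n := ((le_max_left _ _).trans hn₀).trans hnn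
  have hnK := ((le_max_right _ _).trans hn₀).trans hnn
  rw [div_le_iff₀ hε] at hnK
  have hKn : 2 * K ≤ ε * n := by
    have := le_max_left K 2
    linarith
  have h4n : 4 ≤ ε * n := by
    have := le_max_right K 2
    linarith
  have hερn : ε * n ≤ ρ * n := mul_le_mul_of_nonneg_right hερ hn0
  have hρρn : ρ * n ≤ ρ₀ * n := mul_le_mul_of_nonneg_right hρρ hn0
  have hρσn : ρ₀ * n ≤ σ * n / 100 := by
    have := mul_le_mul_of_nonneg_right hρσ hn0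
    linarith
  have hρ1n : ρ₀ * n ≤ n / 100 := by
    have := mul_le_mul_of_nonneg_right hρ1 hn0
    linarith
  obtain ⟨r, hr⟩ : ∃ r : ℤ, r = ⌊ε * n⌋ := ⟨_, rfl⟩
  obtain ⟨r1, hr1⟩ : ∃ r1 : ℤ, r1 = ⌊ρ * n⌋ := ⟨_, rfl⟩
  obtain ⟨B, hB⟩ : ∃ B : ℤ, B = ⌊ρ₀ * n⌋ := ⟨_, rfl⟩
  rw [← hr] at hH1 hH2
  rw [← hB] at hwP hZ
  rw [← hr1]
  have hr_le : (r : ℝ) ≤ ε * n := by rw [hr]; exact Int.floor_le _
  have hr_ge : ε * n / 2 ≤ r := by rw [hr]; exact floor_half (by linarith)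
  have hB_le : (B : ℝ) ≤ ρ₀ * n := by rw [hB]; exact Int.floor_le _
  have hB_ge : ρ₀ * n / 2 ≤ B := by rw [hB]; exact floor_half (by linarith)
  have hrr1 : r ≤ r1 := by rw [hr, hr1]; exact Int.floor_le_floor hερn
  have hr1B : r1 ≤ B := by rw [hr1, hB]; exact Int.floor_le_floor hρρn
  have hr2 : (2 : ℝ) ≤ r := by linarith
  have hr2' : 2 ≤ r := by exact_mod_cast hr2
  have hKr : K ≤ r := by linarith
  have hσ_ge : σ * n / 2 ≤ (⌊σ * n⌋ : ℝ) := floor_half (by linarith)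
  have hL : ((⌊σ * n⌋₊ : ℕ) : ℤ) = ⌊σ * n⌋ := Int.natCast_floor_eq_floor (by linarith)
  have hBσ : 40 * B ≤ ⌊σ * n⌋ := by
    have : ((40 * B : ℤ) : ℝ) ≤ (⌊σ * n⌋ : ℝ) := by
      push_cast
      linarith
    exact_mod_cast this
  have hBn : 100 * B ≤ n := by
    have : ((100 * B : ℤ) : ℝ) ≤ ((n : ℤ) : ℝ) := by
      push_cast
      linarith
    exact_mod_cast this
  have hB2 : 2 ≤ B := hr2'.trans (hrr1.trans hr1B)
  have hBr : (B : ℝ) ≤ 2 * ρ₀ / ε * r := by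
    have h3 : 2 * ρ₀ / ε * (ε * n / 2) ≤ 2 * ρ₀ / ε * r :=
      mul_le_mul_of_nonneg_left hr_ge (by positivity)
    have h4 : 2 * ρ₀ / ε * (ε * n / 2) = ρ₀ * n := by field_simp
    linarith
  have hKmB : Km * r ≤ B := by
    have h3 : Km * r ≤ Km * (ε * n) := mul_le_mul_of_nonneg_left hr_le hKm0.le
    have h4 : ε * (2 * Km) * n ≤ ρ₀ * n := mul_le_mul_of_nonneg_right hεK hn0
    linarith
  -- the special points
  have hS := sit_of hX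
  have hsp : ∀ j ∈ P ∪ Z, j < X.N ∧ Spe X.τ X.k j := fun j hj => mem_sp'.1 (hPZ ▸ hj)
  have hcard : (P ∪ Z).card ≤ ms := by
    refine card_spe hX.sep (by omega) ?_ hsp
    have h3 : (X.N : ℝ) ≤ ((ms * ⌊σ * n⌋₊ : ℕ) : ℝ) := by
      have h4 : (X.N : ℝ) ≤ |R| * n :=
        hX.len.trans (mul_le_mul_of_nonneg_right (le_abs_self R) hn0)
      rw [div_le_iff₀ hσ] at hms
      have h5 : ((⌊σ * n⌋₊ : ℕ) : ℝ) = (⌊σ * n⌋ : ℝ) := by rw [← hL]; rfl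
      push_cast
      rw [h5]
      have h6 : (ms : ℝ) * (σ * n / 2) ≤ ms * (⌊σ * n⌋ : ℝ) :=
        mul_le_mul_of_nonneg_left hσ_ge (Nat.cast_nonneg _)
      have h7 := mul_le_mul_of_nonneg_right hms hn0
      linarith
    exact_mod_cast h3
  have hPc : P.card ≤ ms := (card_le_card subset_union_left).trans hcard
  have hZc : Z.card ≤ ms := (card_le_card subset_union_right).trans hcard
  have hfar : ∀ i ∈ P ∪ Z, ∀ j ∈ P ∪ Z, i ≠ j →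
      4 * B < nm (X.q (i : ZMod X.N) - X.q (j : ZMod X.N)) := fun i hi j hj hne =>
    spe_far hX.geo hX.sep (hsp i hi).1 (hsp j hj).1 hne (hsp i hi).2 (hsp j hj).2
      (by omega) (by omega)
  have hdj : ∀ i ∈ P ∪ Z, ∀ j ∈ P ∪ Z, i ≠ j →
      Disjoint (Bq (X.q (i : ZMod X.N)) B) (Bq (X.q (j : ZMod X.N)) r) := by
    intro i hi j hj hij
    rw [disjoint_left]
    intro v hv hv'
    have h3 := hfar i hi j hj hij
    have h4 := nm_of_Bq hv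
    have h5 := nm_of_Bq hv'
    have h6 := nm_tri' (X.q (i : ZMod X.N)) v (X.q (j : ZMod X.N))
    have h7 := nm_comm (X.q (i : ZMod X.N)) v
    omega
  have hMx : ∀ i ∈ P ∪ Z, MxA (2 * Real.cos θ) X.D X.η (X.q (i : ZMod X.N)) r B (1 / 2) :=
    fun i _ => Hm _ _ _ _ _ (hX.reg.bd _ (q_mem_sites hX.poly hX.enc _) B (by omega) (by omega))
      (by omega) hKmB
  -- the local products
  have hwl : Wl θ ((θ - Real.pi) / 2) X.q X.D X.k X.τ P c0 B := fun j hj ω A hA hA' =>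
    hc01.trans (hwP j hj ω A hA hA')
  have hT0P : ∀ j ∈ P, ∀ r' ≤ B, ∀ ω, 0 ≤ X.T θ j r' ω := fun j hj r' hr' ω =>
    (hwl.mono hr').nonneg hc0.le hj ω
  have hT0Z : ∀ j ∈ Z, ∀ r' ≤ B, 1 ≤ r' → ∀ ω, 0 ≤ X.T θ j r' ω ∧ X.T θ j r' ω ≤ 1 :=
    fun j hj r' hr' hr1' ω => by
      rcases hZ j hj ω r' hr1' hr' with h | h <;> rw [h] <;> norm_num
  have hrB : r ≤ B := hrr1.trans hr1B
  have hT0 : ∀ j ∈ P ∪ Z, ∀ ω, 0 ≤ X.T θ j r ω := by
    intro j hj ω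
    rcases mem_union.1 hj with h | h
    · exact hT0P j h r hrB ω
    · exact (hT0Z j h r hrB (by omega) ω).1
  have hloc : ∀ j : ℕ, Loc (Bq (X.q (j : ZMod X.N)) r ∩ X.D) (X.T θ j r) := fun j =>
    TX_loc _ _ _ _
  obtain ⟨Pf, hPf⟩ : ∃ Pf : Cfg → ℝ, Pf = PT θ ((θ - Real.pi) / 2) X.q X.D X.k X.τ P r :=
    ⟨_, rfl⟩
  have hPfe : ∀ ω, Pf ω = ∏ j ∈ P, X.T θ j r ω := fun ω => by rw [hPf]; rfl
  have hPf0 : ∀ ω, 0 ≤ Pf ω := fun ω => by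
    rw [hPfe]
    exact prod_nonneg fun j hj => hT0 j (mem_union_left _ hj) ω
  have hJ0 : ∀ ω, 0 ≤ X.TZ θ Z r ω ∧ X.TZ θ Z r ω ≤ 1 := fun ω =>
    ⟨prod_nonneg fun j hj => (hT0Z j hj r hrB (by omega) ω).1,
      prod_le_one (fun j hj => (hT0Z j hj r hrB (by omega) ω).1)
        fun j hj => (hT0Z j hj r hrB (by omega) ω).2⟩
  have hGe : ∀ ω, Pf ω * X.TZ θ Z r ω = ∏ j ∈ P ∪ Z, X.T θ j r ω := fun ω => by
    rw [hPfe, prod_union hdis]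
    rfl
  -- the numbers
  obtain ⟨Nf, N1, N2, N3⟩ := HP hS P (fun j hj => hsp j (mem_union_left _ hj)) hPc r B hKr
    (by omega) hrB hBr (by omega) (by omega) (by omega) hwl
  obtain ⟨x, hx⟩ := exists_enum hcard fun j => X.q (j : ZMod X.N)
  obtain ⟨x₀, hx₀⟩ := hX.dia
  obtain ⟨Nb, B1, B2⟩ := Hb n hnb X.D x₀ (fun v hv => (hx₀ v hv).trans
    (mul_le_mul_of_nonneg_right (le_abs_self R) hn0)) x
  have hb : Ex (2 * Real.cos θ) X.D X.η (fun ω => Pf ω * X.TZ θ Z r ω * Real.exp (Nb ω : ℝ)) ≤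
      Cb * Ex (2 * Real.cos θ) X.D X.η (fun ω => Pf ω * X.TZ θ Z r ω) := by
    refine B2 X.η hX.reg.good hX.reg.one _ (fun ω => mul_nonneg (hPf0 ω) (hJ0 ω).1)
      fun ω ω' hω => ?_
    rw [hGe, hGe]
    refine prod_congr rfl fun j hj => hloc j ω ω' fun v hv => hω v ?_
    rintro ⟨-, hv'⟩
    obtain ⟨i, hi⟩ := hx j hj
    have h3 := hv' i
    rw [hi] at h3
    have h4 : (nm (v - X.q (j : ZMod X.N)) : ℝ) ≤ r := by
      exact_mod_cast nm_of_Bq (mem_inter.1 hv).1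
    have h5 : ε * n ≤ e * n := mul_le_mul_of_nonneg_right hεe hn0
    linarith
  have hp : Ex (2 * Real.cos θ) X.D X.η (fun ω => Pf ω * X.TZ θ Z r ω *
      Real.exp (s * ((∑ i ∈ P, Nf i ω : ℕ) : ℝ))) ≤
        3 ^ ms * Y * Ex (2 * Real.cos θ) X.D X.η (fun ω => Pf ω * X.TZ θ Z r ω) := by
    have hIndP : ∀ i ∈ Z, Ind (Bq (X.q (i : ZMod X.N)) B ∩ X.D) Pf := by
      intro i hi ω ω' hω
      rw [hPfe, hPfe]
      refine prod_congr rfl fun j hj => hloc j ω ω' fun v hv => hω v fun hv' => ?_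
      have hne : i ≠ j := fun h => disjoint_left.1 hdis hj (h ▸ hi)
      exact disjoint_left.1 (hdj i (mem_union_right _ hi) j (mem_union_left _ hj) hne)
        (mem_inter.1 hv').1 (mem_inter.1 hv).1
    have hIndN : ∀ i ∈ Z, Ind (Bq (X.q (i : ZMod X.N)) B ∩ X.D)
        (fun ω => Real.exp (s * ((∑ i ∈ P, Nf i ω : ℕ) : ℝ))) := by
      intro i hi ω ω' hω
      have h3 : ∑ j ∈ P, Nf j ω = ∑ j ∈ P, Nf j ω' := by
        refine sum_congr rfl fun j hj => N2 j ω ω' fun v hv => hω v fun hv' => ?_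
        have hne : i ≠ j := fun h => disjoint_left.1 hdis hj (h ▸ hi)
        have h3 := hfar i (mem_union_right _ hi) j (mem_union_left _ hj) hne
        have h4 := nm_of_Bq (mem_inter.1 hv').1
        have h6 := nm_tri' (X.q (i : ZMod X.N)) v (X.q (j : ZMod X.N))
        have h7 := nm_comm (X.q (i : ZMod X.N)) v
        omega
      show Real.exp _ = Real.exp _
      rw [h3]
    have hkey := mom_split hQ hX.reg.good (r := r) (R := B)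
      (fun j : ℕ => X.q (j : ZMod X.N)) (fun j => X.T θ j r)
      (G1 := fun ω => Pf ω * Real.exp (s * ((∑ i ∈ P, Nf i ω : ℕ) : ℝ))) (G2 := Pf) Z
      (fun i hi => hMx i (mem_union_right _ hi)) (fun i hi => hT0 i (mem_union_right _ hi))
      (fun i _ => hloc i)
      (fun i hi j hj => hdj i (mem_union_right _ hi) j (mem_union_right _ hj))
      (fun ω => mul_nonneg (hPf0 ω) (Real.exp_pos _).le)
      (fun i hi ω ω' hω => by
        exact congrArg₂ (· * ·) (hIndP i hi ω ω' hω) (hIndN i hi ω ω' hω))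
      hPf0 hIndP hY.le (by
        rw [hPf]
        exact N3 P (Subset.refl P))
    have hGJ : 0 ≤ Ex (2 * Real.cos θ) X.D X.η (fun ω => Pf ω * X.TZ θ Z r ω) :=
      Ex_nonneg hQ0 fun S _ => mul_nonneg (hPf0 _) (hJ0 _).1
    calc _ = Ex (2 * Real.cos θ) X.D X.η (fun ω => (Pf ω *
          Real.exp (s * ((∑ i ∈ P, Nf i ω : ℕ) : ℝ))) * ∏ i ∈ Z, X.T θ i r ω) := by
          refine Ex_congr fun S _ => ?_
          show _ * X.TZ θ Z r _ * _ = _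
          unfold Pg.TZ
          ring
      _ ≤ _ := hkey
      _ ≤ _ := by
          refine mul_le_mul_of_nonneg_right ?_ hGJ
          exact mul_le_mul_of_nonneg_right (pow_le_pow_right₀ (by norm_num) hZc) hY.le
  -- the lower bound
  have hlow : ∀ ω, X.TZ θ Z r ω ≠ 0 → H ω ≠ 0 →
      c0 ^ (Nb ω + ∑ i ∈ P, Nf i ω) * Pf ω ≤ XW X.D (X.w θ) ω := by
    intro ω hJ hHω
    have hw := hH1 ω hHω hJ
    have hZ1 : ∀ j ∈ Z, TX (X.w θ) X.D (X.q (j : ZMod X.N)) B ω = 1 := by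
      intro j hj
      refine (hZ j hj ω B (by omega) le_rfl).resolve_left fun h => ?_
      have h3 : 0 < TX (X.w θ) X.D (X.q (j : ZMod X.N)) B ω := by
        unfold TX
        refine prod_pos fun A hA => ?_
        rw [mem_filter] at hA
        exact hc₁.trans_le (hw A hA.1)
      exact absurd h h3.ne'
    rw [hPfe]
    refine XW_low h0 h1 hX.geo hX.poly hX.enc hX.sep (fun j hj hsj => ?_) hdis hsp hrB
      (by omega) (by omega) (by omega) hc0 hc1 (fun A hA => hc01.trans (hw A hA)) hZ1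
      (by rw [hB]; exact B1 ω) fun j _ => N1 j ω
    have : j ∈ P ∪ Z := by rw [hPZ]; exact mem_sp'.2 ⟨hj, hsj⟩
    exact mem_union.1 this
  have hmain := low_abs (D := X.D) (η := X.η) hQ0 (X := XW X.D (X.w θ)) (Pf := Pf)
    (J := X.TZ θ Z r) (H := H) (Nb := Nb) (Np := fun ω => ∑ i ∈ P, Nf i ω) hc0 hc1 hs hm1 hXW
    hPf0 hJ0 hH hlow hb hp (hH2 Pf hPf0 (by
      intro ω ω' hω
      rw [hPfe, hPfe]
      refine prod_congr rfl fun j hj => hloc j ω ω' fun v hv => hω v ?_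
      rw [mem_inter] at hv ⊢
      exact ⟨hv.2, mem_biUnion.2 ⟨j, hj, hv.1⟩⟩)) hm2
  refine le_trans ?_ hmain
  -- the product
  have hprod := (ex_prod hQ (by norm_num) (by norm_num) hX.reg.good
    (fun j : ℕ => X.q (j : ZMod X.N)) (fun j => X.T θ j r) (P ∪ Z) hMx hT0
    (fun i _ => hloc i) hdj).1
  have heT0 : ∀ j ∈ P ∪ Z, 0 ≤ X.eT θ j r := fun j hj => Ex_nonneg hQ0 fun S _ => hT0 j hj _
  have heT : ∀ j ∈ P ∪ Z, 0 ≤ X.eT θ j r1 ∧ X.eT θ j r1 ≤ max 1 Y * X.eT θ j r := by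
    intro j hj
    rcases mem_union.1 hj with h | h
    · refine ⟨Ex_nonneg hQ0 fun S _ => hT0P j h r1 hr1B _, ?_⟩
      have h3 := eT_P h0 h1 hS hc0 hs hs0 (hsp j hj) hrr1 hr1B (by omega) (by omega)
        (fun i hi => by
          rw [mem_singleton] at hi
          rw [hi]
          exact hwl j h) (N1 j) (N3 {j} (singleton_subset_iff.2 h))
      have e1 : ∀ r' : ℤ, Ex (2 * Real.cos θ) X.D X.η
          (PT θ ((θ - Real.pi) / 2) X.q X.D X.k X.τ {j} r') = X.eT θ j r' := by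
        intro r'
        unfold Pg.eT Pg.E
        refine Ex_congr fun S _ => ?_
        unfold PT
        rw [prod_singleton]
        rfl
      rw [e1, e1] at h3
      exact h3.trans (mul_le_mul_of_nonneg_right (le_max_right _ _) (heT0 j hj))
    · refine ⟨Ex_nonneg hQ0 fun S _ => (hT0Z j h r1 hr1B (by omega) _).1, ?_⟩
      have h3 : X.eT θ j r1 ≤ X.eT θ j r := Ex_mono hQ0 fun S _ => TX_anti hrr1
        (hZ j h _ r1 (by omega) hr1B) (hZ j h _ r (by omega) hrB)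
      have h4 := mul_le_mul_of_nonneg_right (le_max_left 1 Y) (heT0 j hj)
      linarith
  have hp1 : ∏ j ∈ P ∪ Z, X.eT θ j r1 ≤ max 1 Y ^ ms * ∏ j ∈ P ∪ Z, X.eT θ j r := by
    calc ∏ j ∈ P ∪ Z, X.eT θ j r1 ≤ ∏ j ∈ P ∪ Z, (max 1 Y * X.eT θ j r) :=
          prod_le_prod (fun j hj => (heT j hj).1) fun j hj => (heT j hj).2
      _ = max 1 Y ^ (P ∪ Z).card * ∏ j ∈ P ∪ Z, X.eT θ j r := by
          rw [prod_mul_distrib, prod_const]
      _ ≤ _ := mul_le_mul_of_nonneg_right (pow_le_pow_right₀ (le_max_left _ _) hcard)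
          (prod_nonneg heT0)
  have hp2 : (1 / 2 : ℝ) ^ ms * ∏ j ∈ P ∪ Z, X.eT θ j r ≤
      Ex (2 * Real.cos θ) X.D X.η (fun ω => Pf ω * X.TZ θ Z r ω) := by
    have h3 : (1 / 2 : ℝ) ^ ms ≤ (1 - 1 / 2) ^ (P ∪ Z).card := by
      rw [show (1 - 1 / 2 : ℝ) = 1 / 2 by norm_num]
      exact pow_le_pow_of_le_one (by norm_num) (by norm_num) hcard
    refine (mul_le_mul_of_nonneg_right h3 (prod_nonneg heT0)).trans (hprod.trans (le_of_eq ?_))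
    exact Ex_congr fun S _ => (hGe _).symm
  rw [← hPZ]
  have hA : 0 ≤ c0 ^ m * (c₂ / 2) := by positivity
  calc c0 ^ m * (c₂ / 2) * ((1 / 2) ^ ms / max 1 Y ^ ms) * ∏ j ∈ P ∪ Z, X.eT θ j r1
      ≤ c0 ^ m * (c₂ / 2) * ((1 / 2) ^ ms / max 1 Y ^ ms) *
          (max 1 Y ^ ms * ∏ j ∈ P ∪ Z, X.eT θ j r) :=
        mul_le_mul_of_nonneg_left hp1 (by positivity)
    _ = c0 ^ m * (c₂ / 2) * ((1 / 2) ^ ms * ∏ j ∈ P ∪ Z, X.eT θ j r) := by
        field_simp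
    _ ≤ _ := mul_le_mul_of_nonneg_left hp2 hA

/-- **[L-GEN]** is true. -/
theorem l_gen (h0 : 0 < θ) (h1 : θ ≤ Real.pi / 3) (hR : RSW (2 * Real.cos θ))
    (hSR : SRSW (2 * Real.cos θ)) : L_gen θ := by
  intro σ R c₁ hσ hc₁
  have h3 : 0 < min (σ / 100) (1 / 100) := lt_min (by positivity) (by norm_num)
  refine ⟨min (σ / 100) (1 / 100), h3, min_le_left _ _, min_le_right _ _, fun ρ hρ hρρ => ?_⟩
  exact l_gen_core h0 h1 hR hSR σ R c₁ hσ hc₁ _ h3 (min_le_left _ _) (min_le_right _ _) ρ hρ hρρ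

end Vale.Agent.P167.H945.L
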