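import Vale.Agent.P167.H945.L.Gen

/-!
# P167, general `q`, block Q-LAM (L-POS): the lower bound for positive weights
-/

namespace Vale.Agent.P167.H945.L

open Finset
open Vale.Agent.P167.BR
open Vale.Agent.P167.FK (Bq Ex Good RSW cf)
open Vale.Agent.P167.FKA (Ex_congr)
open Vale.Agent.P167.H365.NQ (XW)
open Vale.Agent.P167.H192.Q (SRSW)
open Vale.Agent.P167.QX (lo hi)
open Vale.Agent.P167.H718.Lam (Pg L_gen L_pos)
open Vale.Agent.P167.H601.LG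
open Vale.Agent.P167.H601.S2

variable {θ : ℝ}

/-- **[L-POS]** is true. -/
theorem l_pos (h0 : 0 < θ) (h1 : θ ≤ Real.pi / 3) (hR : RSW (2 * Real.cos θ))
    (hSR : SRSW (2 * Real.cos θ)) : L_pos θ := by
  intro σ R hσ
  obtain ⟨c₁, hc₁, hc₁', hlow⟩ := exists_low_wJ h0 h1
  obtain ⟨ρ₀, hρ₀, -, -, H⟩ := l_gen h0 h1 hR hSR σ R c₁ hσ hc₁
  refine ⟨ρ₀, hρ₀, fun ρ hρ hρρ => ?_⟩
  obtain ⟨ε, -, -, H⟩ := H ρ hρ hρρ
  obtain ⟨c, n₀, hc, H⟩ := H 1 one_pos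
  refine ⟨c, n₀, hc, fun n hn X hX _ hk hτ => ?_⟩
  have hcos : 0 < Real.cos θ := Real.cos_pos_of_mem_Ioo ⟨by linarith [Real.pi_pos], by
    linarith [Real.pi_pos]⟩
  have hw : ∀ ω, ∀ A ∈ pcs ω X.D, c₁ ≤ X.w θ A := by
    intro ω A hA
    by_cases hl : IsLp X.D A
    · exact hc₁'.trans (wJ_lp hX.poly hX.enc hA hl hcos.ne').ge
    · obtain ⟨f1, f2, -⟩ := feet hX.poly hX.enc hA hl
      refine hlow hX.poly hX.enc hA ?_ ?_ ?_
      · rcases hk with h | h <;> rw [h] <;> omega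
      · exact (hτ _ _ f1.le f2).1
      · exact (hτ _ _ f1.le f2).2
  have hnn : ∀ ω, 0 ≤ XW X.D (X.w θ) ω := fun ω =>
    prod_nonneg fun A hA => hc₁.le.trans (hw ω A hA)
  refine H n hn X hX X.sp ∅ (disjoint_empty_right _) (union_empty _)
    (fun j _ ω A hA _ => hw ω A hA) (fun j hj => absurd hj (notMem_empty j)) hnn (fun _ => 1)
    (fun _ => ⟨zero_le_one, le_rfl⟩) (fun ω _ _ A hA => hw ω A hA) fun F _ _ => ?_
  rw [one_mul]
  refine le_of_eq ?_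
  unfold Pg.E
  exact Ex_congr fun S _ => by rw [mul_one]

end Vale.Agent.P167.H945.L
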