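import Vale.Agent.P167.H945.L.Mom
import Vale.Agent.P167.H975.LkH

/-!
# P167, general `q`, block Q-LAM (L-GEN): large strands, abstract lower bound, separation
-/

namespace Vale.Agent.P167.H945.L

open Finset
open Vale.Agent.P167.BR
open Vale.Agent.P167.FK (Bq Ex Good RSW cf)
open Vale.Agent.P167.FKA (Loc Ind Ex_mono Ex_congr Ex_const Ex_mul_left Ex_nonneg Ex_add Ex_sub)
open Vale.Agent.P167.H562.QM (MajA OneC Nr)
open Vale.Agent.P167.H166 (bxx mem_bxx)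
open Vale.Agent.P167.H398.Q (macro_F)
open Vale.Agent.P167.H975 (ex_prod_G)
open Vale.Agent.P167.H167.Q (MxA)

variable {Q : ℝ} {D : Finset (ℤ × ℤ)} {η : Cfg}

theorem floor_half {x : ℝ} (hx : 1 ≤ x) : x / 2 ≤ (⌊x⌋ : ℝ) := by
  have h1 := Int.lt_floor_add_one x
  have h2 : (1 : ℝ) ≤ (⌊x⌋ : ℝ) := by
    exact_mod_cast Int.le_floor.2 (by exact_mod_cast hx)
  linarith

/-- **The number of the large strands.** -/
theorem exists_big (hQ : 1 ≤ Q) (hR : RSW Q) (ms : ℕ) {ρ₀ R σ : ℝ} (hρ₀ : 0 < ρ₀) (hR0 : 0 ≤ R)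
    (hρσ : ρ₀ ≤ σ) : ∃ e C n₀ : ℝ, 0 < e ∧ 0 < C ∧ ∀ n : ℕ, n₀ ≤ n →
    ∀ (D : Finset (ℤ × ℤ)) (x₀ : ℤ × ℤ), (∀ v ∈ D, (nm (v - x₀) : ℝ) ≤ R * n) →
    ∀ x : Fin ms → ℤ × ℤ, ∃ Nb : Cfg → ℕ,
      (∀ ω, MajA D ((⌊ρ₀ * n⌋ : ℝ) / 16) ω (Nb ω)) ∧
      ∀ η : Cfg, Good η → (∀ (y : ℤ × ℤ) (a : ℤ), 1 ≤ a → a ≤ ⌊σ * n⌋ →
        (∃ v ∈ D, nm (y - v) ≤ ⌊σ * n⌋) → OneC y a D η) →
      ∀ G : Cfg → ℝ, (∀ ω, 0 ≤ G ω) →
      (∀ ω ω' : Cfg, (∀ v, ¬ (v ∈ D ∧ ∀ i, e * n < (nm (v - x i) : ℝ)) → ω v = ω' v) →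
        G ω = G ω') →
      Ex Q D η (fun ω => G ω * Real.exp (Nb ω : ℝ)) ≤ C * Ex Q D η G := by
  obtain ⟨e1, he1, H⟩ := macro_F hQ hR ms
  obtain ⟨C, n₀, hC, hn₀, H⟩ := H (ρ₀ / 32) R 1 (by positivity) hR0
  refine ⟨e1 * (ρ₀ / 32) / (1 + |(1 : ℝ)|), C, max n₀ (2 / ρ₀), by positivity, hC, ?_⟩
  intro n hn D x₀ hD x
  have hn1 : n₀ ≤ n := (le_max_left _ _).trans hn
  have hn2 : 2 / ρ₀ ≤ n := (le_max_right _ _).trans hn
  rw [div_le_iff₀ hρ₀] at hn2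
  have hρn : 2 ≤ ρ₀ * n := by linarith
  have hn0 : (0 : ℝ) ≤ n := Nat.cast_nonneg n
  obtain ⟨Nb, -, n2, n3⟩ := H n hn1 x₀ D hD x
  have h1 := floor_half (x := ρ₀ * n) (by linarith)
  have hσn : ρ₀ * n ≤ σ * n := mul_le_mul_of_nonneg_right hρσ hn0
  have h2 := floor_half (x := σ * n) (by linarith)
  refine ⟨Nb, fun ω 𝓕 k1 k2 k3 => n2 ω 𝓕 k1 k2 fun γ hγ => ?_,
    fun η hη hone G hG0 hG => ?_⟩
  · obtain ⟨k4, f1, hf1, f2, hf2, k5⟩ := k3 γ hγ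
    exact ⟨k4, f1, hf1, f2, hf2, by linarith⟩
  · have h3 := n3 D η hη (fun y a ha ha' hy => ?_) G hG0 fun ω ω' hω => hG ω ω' fun v hv =>
      hω v fun hv' => hv ⟨hv'.1, hv'.2.2⟩
    · simpa only [one_mul] using h3
    · have h5 : y ∈ bxx y a := by
        rw [mem_bxx, sub_self]
        show max |(0 : ℤ)| |(0 : ℤ)| ≤ a
        simp
        omega
      obtain ⟨u, hu, hu'⟩ := (hy y h5).1
      refine hone y a ha ?_ ⟨u, hu, ?_⟩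
      · have : (a : ℝ) ≤ (⌊σ * n⌋ : ℝ) := by linarith
        exact_mod_cast this
      · have : (nm (y - u) : ℝ) ≤ (⌊σ * n⌋ : ℝ) := by linarith
        exact_mod_cast this

/-- **Abstract lower bound.** -/
theorem low_abs (hQ : 0 < Q) {X Pf J H : Cfg → ℝ} {Nb Np : Cfg → ℕ} {c0 c2 s Cb Cp : ℝ} {m : ℕ}
    (hc0 : 0 < c0) (hc1 : c0 ≤ 1) (hs : 0 < s) (hm : 1 ≤ m)
    (hX : ∀ ω, 0 ≤ X ω) (hP : ∀ ω, 0 ≤ Pf ω) (hJ : ∀ ω, 0 ≤ J ω ∧ J ω ≤ 1)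
    (hH : ∀ ω, 0 ≤ H ω ∧ H ω ≤ 1)
    (hlow : ∀ ω, J ω ≠ 0 → H ω ≠ 0 → c0 ^ (Nb ω + Np ω) * Pf ω ≤ X ω)
    (hb : Ex Q D η (fun ω => Pf ω * J ω * Real.exp (Nb ω : ℝ)) ≤
      Cb * Ex Q D η (fun ω => Pf ω * J ω))
    (hp : Ex Q D η (fun ω => Pf ω * J ω * Real.exp (s * (Np ω : ℝ))) ≤
      Cp * Ex Q D η (fun ω => Pf ω * J ω))
    (h2 : c2 * Ex Q D η (fun ω => Pf ω * J ω) ≤ Ex Q D η (fun ω => Pf ω * J ω * H ω))
    (hmc : Cb + Cp / s ≤ c2 / 2 * m) :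
    c0 ^ m * (c2 / 2) * Ex Q D η (fun ω => Pf ω * J ω) ≤ Ex Q D η X := by
  have hm0 : (0 : ℝ) < m := by exact_mod_cast hm
  have hpw : ∀ ω, c0 ^ m * (Pf ω * J ω * H ω - 1 / m * (Pf ω * J ω * Real.exp (Nb ω : ℝ) +
      1 / s * (Pf ω * J ω * Real.exp (s * (Np ω : ℝ))))) ≤ X ω := by
    intro ω
    have hPJ : 0 ≤ Pf ω * J ω := mul_nonneg (hP ω) (hJ ω).1
    have hPJH : 0 ≤ Pf ω * J ω * H ω := mul_nonneg hPJ (hH ω).1
    have hc0m : 0 < c0 ^ m := pow_pos hc0 m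
    have eb : (Nb ω : ℝ) ≤ Real.exp (Nb ω : ℝ) := by
      linarith [Real.add_one_le_exp (Nb ω : ℝ)]
    have ep : (Np ω : ℝ) ≤ 1 / s * Real.exp (s * (Np ω : ℝ)) := by
      have h3 := Real.add_one_le_exp (s * (Np ω : ℝ))
      rw [one_div, inv_mul_eq_div, le_div_iff₀ hs]
      linarith
    have hN : Pf ω * J ω * (((Nb ω + Np ω : ℕ) : ℝ)) ≤ Pf ω * J ω * Real.exp (Nb ω : ℝ) +
        1 / s * (Pf ω * J ω * Real.exp (s * (Np ω : ℝ))) := by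
      push_cast
      have h4 := mul_le_mul_of_nonneg_left (add_le_add eb ep) hPJ
      refine h4.trans (le_of_eq ?_)
      ring
    have hstep : c0 ^ m * (Pf ω * J ω * H ω - 1 / m * (Pf ω * J ω * Real.exp (Nb ω : ℝ) +
        1 / s * (Pf ω * J ω * Real.exp (s * (Np ω : ℝ))))) ≤
        c0 ^ m * (Pf ω * J ω * H ω - 1 / m * (Pf ω * J ω * (((Nb ω + Np ω : ℕ) : ℝ)))) := by
      refine mul_le_mul_of_nonneg_left ?_ hc0m.le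
      have := mul_le_mul_of_nonneg_left hN (by positivity : (0 : ℝ) ≤ 1 / m)
      linarith
    refine hstep.trans ?_
    have hN0 : (0 : ℝ) ≤ ((Nb ω + Np ω : ℕ) : ℝ) := Nat.cast_nonneg _
    by_cases hz : J ω = 0 ∨ H ω = 0
    · have h3 : Pf ω * J ω * H ω = 0 := by
        rcases hz with h | h <;> rw [h] <;> ring
      rw [h3]
      have h4 : 0 ≤ 1 / (m : ℝ) * (Pf ω * J ω * (((Nb ω + Np ω : ℕ) : ℝ))) := by positivity
      have h5 : c0 ^ m * (0 - 1 / m * (Pf ω * J ω * (((Nb ω + Np ω : ℕ) : ℝ)))) ≤ 0 :=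
        mul_nonpos_of_nonneg_of_nonpos hc0m.le (by linarith)
      exact h5.trans (hX ω)
    · push Not at hz
      have h3 := hlow ω hz.1 hz.2
      have h4 : Pf ω * J ω * H ω ≤ Pf ω := by
        have h5 : Pf ω * J ω ≤ Pf ω := mul_le_of_le_one_right (hP ω) (hJ ω).2
        exact (mul_le_of_le_one_right hPJ (hH ω).2).trans h5
      have h6 : c0 ^ m * (1 - ((Nb ω + Np ω : ℕ) : ℝ) / m) ≤ c0 ^ (Nb ω + Np ω) := by
        by_cases hle : Nb ω + Np ω ≤ m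
        · have h7 : c0 ^ m ≤ c0 ^ (Nb ω + Np ω) := pow_le_pow_of_le_one hc0.le hc1 hle
          have h8 : c0 ^ m * (1 - ((Nb ω + Np ω : ℕ) : ℝ) / m) ≤ c0 ^ m := by
            refine mul_le_of_le_one_right hc0m.le ?_
            have : 0 ≤ ((Nb ω + Np ω : ℕ) : ℝ) / m := by positivity
            linarith
          exact h8.trans h7
        · push Not at hle
          have h7 : (m : ℝ) ≤ ((Nb ω + Np ω : ℕ) : ℝ) := by exact_mod_cast hle.le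
          have h8 : 1 - ((Nb ω + Np ω : ℕ) : ℝ) / m ≤ 0 := by
            rw [sub_nonpos, one_le_div hm0]
            exact h7
          exact (mul_nonpos_of_nonneg_of_nonpos hc0m.le h8).trans (pow_nonneg hc0.le _)
      have h7 : c0 ^ m * (1 - ((Nb ω + Np ω : ℕ) : ℝ) / m) * (Pf ω * J ω * H ω) ≤
          c0 ^ (Nb ω + Np ω) * Pf ω := by
        calc _ ≤ c0 ^ (Nb ω + Np ω) * (Pf ω * J ω * H ω) := mul_le_mul_of_nonneg_right h6 hPJH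
          _ ≤ _ := mul_le_mul_of_nonneg_left h4 (pow_nonneg hc0.le _)
      refine le_trans ?_ (h7.trans h3)
      have h8 : Pf ω * J ω * H ω * (((Nb ω + Np ω : ℕ) : ℝ)) ≤
          Pf ω * J ω * (((Nb ω + Np ω : ℕ) : ℝ)) :=
        mul_le_mul_of_nonneg_right (mul_le_of_le_one_right hPJ (hH ω).2) hN0
      have h9 : c0 ^ m * (1 - ((Nb ω + Np ω : ℕ) : ℝ) / m) * (Pf ω * J ω * H ω) =
          c0 ^ m * (Pf ω * J ω * H ω - 1 / m * (Pf ω * J ω * H ω * (((Nb ω + Np ω : ℕ) : ℝ)))) := by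
        ring
      rw [h9]
      refine mul_le_mul_of_nonneg_left ?_ hc0m.le
      have := mul_le_mul_of_nonneg_left h8 (by positivity : (0 : ℝ) ≤ 1 / m)
      linarith
  have h3 : Ex Q D η (fun ω => c0 ^ m * (Pf ω * J ω * H ω - 1 / m * (Pf ω * J ω *
      Real.exp (Nb ω : ℝ) + 1 / s * (Pf ω * J ω * Real.exp (s * (Np ω : ℝ)))))) ≤ Ex Q D η X :=
    Ex_mono hQ fun S _ => hpw _
  rw [Ex_mul_left, Ex_sub, Ex_mul_left, Ex_add, Ex_mul_left] at h3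
  refine le_trans ?_ h3
  have hG0 : 0 ≤ Ex Q D η (fun ω => Pf ω * J ω) :=
    Ex_nonneg hQ fun S _ => mul_nonneg (hP _) (hJ _).1
  rw [mul_assoc]
  refine mul_le_mul_of_nonneg_left ?_ (pow_pos hc0 m).le
  have h4 : Ex Q D η (fun ω => Pf ω * J ω * Real.exp (Nb ω : ℝ)) +
      1 / s * Ex Q D η (fun ω => Pf ω * J ω * Real.exp (s * (Np ω : ℝ))) ≤
      c2 / 2 * m * Ex Q D η (fun ω => Pf ω * J ω) := by
    have h5 := mul_le_mul_of_nonneg_left hp (by positivity : (0 : ℝ) ≤ 1 / s)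
    have h6 := mul_le_mul_of_nonneg_right hmc hG0
    have h7 : 1 / s * (Cp * Ex Q D η (fun ω => Pf ω * J ω)) =
        Cp / s * Ex Q D η (fun ω => Pf ω * J ω) := by ring
    linarith
  have h8 := mul_le_mul_of_nonneg_left h4 (by positivity : (0 : ℝ) ≤ 1 / m)
  have h9 : 1 / (m : ℝ) * (c2 / 2 * m * Ex Q D η (fun ω => Pf ω * J ω)) =
      c2 / 2 * Ex Q D η (fun ω => Pf ω * J ω) := by
    field_simp
  linarith

/-- **A bound of an expectation, times separated local factors.** -/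
theorem mom_split (hQ : 1 ≤ Q) (hη : Good η) {r R : ℤ} (x : ℕ → ℤ × ℤ) (F : ℕ → Cfg → ℝ)
    {G1 G2 : Cfg → ℝ} (I : Finset ℕ) (hM : ∀ i ∈ I, MxA Q D η (x i) r R (1 / 2))
    (hF0 : ∀ i ∈ I, ∀ ω, 0 ≤ F i ω) (hF : ∀ i ∈ I, Loc (Bq (x i) r ∩ D) (F i))
    (hd : ∀ i ∈ I, ∀ j ∈ I, i ≠ j → Disjoint (Bq (x i) R) (Bq (x j) r))
    (hG1 : ∀ ω, 0 ≤ G1 ω) (hG1I : ∀ i ∈ I, Ind (Bq (x i) R ∩ D) G1)
    (hG2 : ∀ ω, 0 ≤ G2 ω) (hG2I : ∀ i ∈ I, Ind (Bq (x i) R ∩ D) G2) {Y : ℝ} (hY : 0 ≤ Y)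
    (h : Ex Q D η G1 ≤ Y * Ex Q D η G2) :
    Ex Q D η (fun ω => G1 ω * ∏ i ∈ I, F i ω) ≤
      3 ^ I.card * Y * Ex Q D η (fun ω => G2 ω * ∏ i ∈ I, F i ω) := by
  have hQ0 : 0 < Q := by linarith
  have h1 := (ex_prod_G hQ (by norm_num) (by norm_num) hη x F G1 I hM hF0 hF hd hG1 hG1I).2
  have h2 := (ex_prod_G hQ (by norm_num) (by norm_num) hη x F G2 I hM hF0 hF hd hG2 hG2I).1
  set p := ∏ i ∈ I, Ex Q D η (F i) with hp
  have hp0 : 0 ≤ p := prod_nonneg fun i hi => Ex_nonneg hQ0 fun S _ => hF0 i hi _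
  have h3 : (1 + 1 / 2 : ℝ) ^ I.card = 3 ^ I.card * (1 - 1 / 2 : ℝ) ^ I.card := by
    rw [← mul_pow]
    norm_num
  rw [h3] at h1
  have h4 : Ex Q D η G1 * p ≤ Y * (Ex Q D η G2 * p) := by
    have := mul_le_mul_of_nonneg_right h hp0
    linarith
  calc _ ≤ _ := h1
    _ ≤ 3 ^ I.card * (1 - 1 / 2 : ℝ) ^ I.card * (Y * (Ex Q D η G2 * p)) :=
        mul_le_mul_of_nonneg_left h4 (by positivity)
    _ = 3 ^ I.card * Y * ((1 - 1 / 2 : ℝ) ^ I.card * (Ex Q D η G2 * p)) := by ring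
    _ ≤ _ := mul_le_mul_of_nonneg_left h2 (by positivity)

/-- An enumeration. -/
theorem exists_enum {ms : ℕ} {P : Finset ℕ} (hP : P.card ≤ ms) (f : ℕ → ℤ × ℤ) :
    ∃ x : Fin ms → ℤ × ℤ, ∀ j ∈ P, ∃ i, x i = f j := by
  classical
  refine ⟨fun i => if h : (i : ℕ) < P.card then f (P.equivFin.symm ⟨i, h⟩ : ℕ) else 0,
    fun j hj => ?_⟩
  have h1 := (P.equivFin ⟨j, hj⟩).2
  refine ⟨⟨(P.equivFin ⟨j, hj⟩ : ℕ), h1.trans_le hP⟩, ?_⟩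
  simp only [Fin.eta, h1, dite_true, Equiv.symm_apply_apply]

end Vale.Agent.P167.H945.L
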