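import Vale.Agent.P167.H601.S2.Main
import Vale.Agent.P167.H365.Q.Defs

/-!
# P167, general `q`, block Q-LAM (L-GEN): the product of all the weights, from below
-/

namespace Vale.Agent.P167.H945.L

open Finset
open Vale.Agent.P167.E6 (IsPolygon Encloses)
open Vale.Agent.P167.BR
open Vale.Agent.P167.FK (Bq)
open Vale.Agent.P167.H562.QM (MajA)
open Vale.Agent.P167.H975 (TX)
open Vale.Agent.P167.H365.NQ (XW)
open Vale.Agent.P167.H601.LG
open Vale.Agent.P167.H601.S2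

variable {N : ℕ} {q : ZMod N → ℤ × ℤ} {D : Finset (ℤ × ℤ)} {ω : Cfg} {τ : ℕ → ℤ}
  {n k L : ℕ} {θ β c0 : ℝ}

open Classical in
/-- The product over the pieces in one of the boxes. -/
theorem prod_box (w : Finset Ed → ℝ) (P : Finset ℕ) {r : ℕ → ℤ}
    (hd : ∀ i ∈ P, ∀ j ∈ P, i ≠ j →
      Disjoint (Bq (q (i : ZMod N)) (r i)) (Bq (q (j : ZMod N)) (r j))) :
    ∏ A ∈ (pcs ω D).filter (fun A => ∃ j ∈ P, ∀ e ∈ A, hdv e ∈ Bq (q (j : ZMod N)) (r j)), w A =
      ∏ j ∈ P, TX w D (q (j : ZMod N)) (r j) ω := by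
  have h1 : (pcs ω D).filter (fun A => ∃ j ∈ P, ∀ e ∈ A, hdv e ∈ Bq (q (j : ZMod N)) (r j)) =
      P.biUnion fun j => (pcs ω D).filter fun A => ∀ e ∈ A,
        hdv e ∈ Bq (q (j : ZMod N)) (r j) := by
    ext A
    simp only [mem_filter, mem_biUnion]
    tauto
  rw [h1, prod_biUnion]
  · exact prod_congr rfl fun j _ => rfl
  · intro i hi j hj hij
    show Disjoint _ _
    rw [disjoint_left]
    intro A hA hA'
    rw [mem_filter] at hA hA'
    obtain ⟨e, he⟩ := pcs_nonempty hA.1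
    exact disjoint_left.1 (hd i hi j hj hij) (hA.2 e he) (hA'.2 e he)

/-- A strand has a head in the domain. -/
theorem exists_head {A : Finset Ed} (hA : A ∈ pcs ω D) (hl : ¬ IsLp D A) :
    ∃ e ∈ A, hdv e ∈ D := by
  obtain ⟨e, he, h1⟩ := exists_entry hA hl
  exact ⟨e, he, (mem_eds.1 (subset_eds hA he)).resolve_right h1⟩

open Classical in
/-- The number of the large strands. -/
theorem card_large (h0 : 0 < θ) (h1 : θ ≤ Real.pi / 3) (hG : GeoN n N q τ)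
    (hq : IsPolygon q) (hD : Encloses q D) {R : ℤ} (hR : R ≤ n) {M : ℕ}
    (hM : MajA D ((R : ℝ) / 16) ω M) :
    ((pcs ω D).filter fun A => (∀ j, j < N → Spe τ k j →
      ¬ ∀ e ∈ A, hdv e ∈ Bq (q (j : ZMod N)) R) ∧ wJ θ β q D k τ A ≠ 1).card ≤ M := by
  refine hM _ (fun A hA => ?_) (fun A hA B hB hne => ?_) fun A hA => ?_
  · rw [mem_filter] at hA
    exact H167.isSeg hA.1
  · rw [mem_filter] at hA hB
    rw [disjoint_left]
    intro e h1 h2
    exact hne (eq_of_mem_pcs hA.1 hB.1 h1 h2)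
  · rw [mem_filter] at hA
    obtain ⟨hA1, hA2, hA3⟩ := hA
    exact ⟨exists_head hA1 (turn_of_ne_one h0 h1 hq hD hA1 hA3).1,
      large_of_ne_one h0 h1 hG hq hD hA1 hA3 hR hA2⟩

/-- **The product of all the weights, from below.** -/
theorem XW_low (h0 : 0 < θ) (h1 : θ ≤ Real.pi / 3) (hG : GeoN n N q τ)
    (hq : IsPolygon q) (hD : Encloses q D) (hS : SepL L N τ k) {P Z : Finset ℕ}
    (hPZ : ∀ j, j < N → Spe τ k j → j ∈ P ∨ j ∈ Z) (hdis : Disjoint P Z)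
    (hP : ∀ j ∈ P ∪ Z, j < N ∧ Spe τ k j)
    {r R : ℤ} (hrR : r ≤ R) (hRn : 6 * R < n) (hRL : 4 * R < L) (hR0 : 0 ≤ R)
    (hc0 : 0 < c0) (hc1 : c0 ≤ 1) (hw : ∀ A ∈ pcs ω D, c0 ≤ wJ θ β q D k τ A)
    (hZ : ∀ j ∈ Z, TX (wJ θ β q D k τ) D (q (j : ZMod N)) R ω = 1)
    {M : ℕ} (hM : MajA D ((R : ℝ) / 16) ω M) {Nf : ℕ → ℕ}
    (hN : ∀ j ∈ P, MajA (Bq (q (j : ZMod N)) R) ((r : ℝ) / 16) ω (Nf j)) :
    c0 ^ (M + ∑ j ∈ P, Nf j) * ∏ j ∈ P, TX (wJ θ β q D k τ) D (q (j : ZMod N)) r ω ≤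
      XW D (wJ θ β q D k τ) ω := by
  classical
  obtain ⟨ρ, hρ⟩ : ∃ ρ : ℕ → ℤ, ρ = fun j => if j ∈ P then r else R := ⟨_, rfl⟩
  have hρR : ∀ j, ρ j ≤ R := by
    intro j
    rw [hρ]
    simp only
    split_ifs
    · exact hrR
    · exact le_rfl
  have hρP : ∀ j ∈ P, ρ j = r := fun j hj => by
    rw [hρ]
    exact if_pos hj
  have hρZ : ∀ j ∈ Z, ρ j = R := fun j hj => by
    rw [hρ]
    exact if_neg (disjoint_right.1 hdis hj)
  have hdis' : ∀ i ∈ P ∪ Z, ∀ j ∈ P ∪ Z, i ≠ j →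
      Disjoint (Bq (q (i : ZMod N)) (ρ i)) (Bq (q (j : ZMod N)) (ρ j)) := by
    intro i hi j hj hij
    rw [disjoint_left]
    intro v hv hv'
    have h3 := spe_far hG hS (hP i hi).1 (hP j hj).1 hij (hP i hi).2 (hP j hj).2 (d := 2 * R)
      (by omega) (by omega)
    have h4 := nm_of_Bq hv
    have h5 := nm_of_Bq hv'
    have h6 := nm_tri' (q (i : ZMod N)) v (q (j : ZMod N))
    have h7 := nm_comm (q (i : ZMod N)) v
    have h8 := hρR i
    have h9 := hρR j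
    omega
  have hbox := prod_box (ω := ω) (D := D) (wJ θ β q D k τ) (P ∪ Z) hdis'
  rw [prod_union hdis, prod_congr rfl (fun j hj => by rw [hρP j hj] :
      ∀ j ∈ P, TX (wJ θ β q D k τ) D (q (j : ZMod N)) (ρ j) ω =
        TX (wJ θ β q D k τ) D (q (j : ZMod N)) r ω),
    prod_eq_one (fun j hj => by rw [hρZ j hj]; exact hZ j hj :
      ∀ j ∈ Z, TX (wJ θ β q D k τ) D (q (j : ZMod N)) (ρ j) ω = 1), mul_one] at hbox
  rw [← hbox]
  have key := prod_cmp_low (S := pcs ω D) (w := wJ θ β q D k τ) (P := fun _ => True)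
    (P' := fun A => ∃ j ∈ P ∪ Z, ∀ e ∈ A, hdv e ∈ Bq (q (j : ZMod N)) (ρ j))
    (fun _ _ _ => trivial)
    hc0 hc1 (fun A hA _ => hc0.le.trans (hw A hA)) (fun A hA _ _ => hw A hA)
    (M := M + ∑ j ∈ P, Nf j) ?_
  · rw [filter_true_of_mem (fun _ _ => trivial)] at key
    exact key
  · have hb := card_large h0 h1 hG hq hD (k := k) (β := β) (by omega : R ≤ n) hM
    have hbt := fun j (hj : j ∈ P) => card_between h0 h1 hG hq hD hS
      (hP j (mem_union_left _ hj)).1 (hP j (mem_union_left _ hj)).2 hrR hRn hRL (hN j hj) (β := β)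
    have hsub : ((pcs ω D).filter fun A => (True ∧ ¬ ∃ j ∈ P ∪ Z, ∀ e ∈ A,
        hdv e ∈ Bq (q (j : ZMod N)) (ρ j)) ∧ wJ θ β q D k τ A ≠ 1) ⊆
        ((pcs ω D).filter fun A => (∀ j, j < N → Spe τ k j →
          ¬ ∀ e ∈ A, hdv e ∈ Bq (q (j : ZMod N)) R) ∧ wJ θ β q D k τ A ≠ 1) ∪
        P.biUnion fun j => (pcs ω D).filter fun A => ((∀ e ∈ A, hdv e ∈ Bq (q (j : ZMod N)) R) ∧
          ¬ ∀ e ∈ A, hdv e ∈ Bq (q (j : ZMod N)) r) ∧ wJ θ β q D k τ A ≠ 1 := by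
      intro A hA
      rw [mem_filter] at hA
      obtain ⟨hA1, ⟨-, hA2⟩, hA3⟩ := hA
      rw [mem_union]
      by_cases hout : ∀ j, j < N → Spe τ k j → ¬ ∀ e ∈ A, hdv e ∈ Bq (q (j : ZMod N)) R
      · exact Or.inl (mem_filter.2 ⟨hA1, hout, hA3⟩)
      · push Not at hout
        obtain ⟨j, hj, hs, hin⟩ := hout
        rcases hPZ j hj hs with hjP | hjZ
        · refine Or.inr (mem_biUnion.2 ⟨j, hjP, mem_filter.2 ⟨hA1, ⟨hin, fun h => ?_⟩, hA3⟩⟩)
          exact hA2 ⟨j, mem_union_left _ hjP, by rw [hρP j hjP]; exact h⟩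
        · exact absurd ⟨j, mem_union_right _ hjZ, by rw [hρZ j hjZ]; exact hin⟩ hA2
    refine (card_le_card ?_).trans ((card_union_le _ _).trans (Nat.add_le_add hb
      (card_biUnion_le.trans (sum_le_sum fun j hj => hbt j hj))))
    convert hsub

/-- Special points: their number. -/
theorem card_spe {ms : ℕ} (hS : SepL L N τ k) (hL : 0 < L) (hN : N ≤ ms * L) {P : Finset ℕ}
    (hP : ∀ j ∈ P, j < N ∧ Spe τ k j) : P.card ≤ ms := by
  classical
  have hinj : Set.InjOn (fun j => j / L) (P : Set ℕ) := by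
    intro i hi j hj hij
    by_contra hne
    simp only at hij
    have key : ∀ i j : ℕ, i < j → i / L = j / L → i + L ≤ j → False := by
      intro i j _ h h'
      have h3 := Nat.div_add_mod i L
      have h4 := Nat.div_add_mod j L
      have h5 := Nat.mod_lt j hL
      rw [h] at h3
      omega
    rcases Nat.lt_or_gt_of_ne hne with h | h
    · exact key i j h hij (hS i j h (hP j hj).1 (hP i hi).2 (hP j hj).2).1
    · exact key j i h hij.symm (hS j i h (hP i hi).1 (hP j hj).2 (hP i hi).2).1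
  have h1 : P.card ≤ (range ms).card := by
    refine card_le_card_of_injOn (fun j => j / L) (fun j hj => ?_) hinj
    rw [mem_coe, mem_range]
    have h3 := (hP j hj).1
    rw [Nat.div_lt_iff_lt_mul hL]
    omega
  rwa [card_range] at h1

end Vale.Agent.P167.H945.L
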