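import Vale.Agent.P167.H945.L.Det

/-!
# P167, general `q`, block Q-LAM (L-GEN): exponential moments
-/

namespace Vale.Agent.P167.H945.L

open Finset
open Vale.Agent.P167.E6 (IsPolygon Encloses)
open Vale.Agent.P167.BR
open Vale.Agent.P167.FK (Bq Ex Good RSW cf)
open Vale.Agent.P167.FKA (Loc Ind Ex_mono Ex_congr Ex_const Ex_mul_left Ex_nonneg)
open Vale.Agent.P167.H562.QM (MajA OneC Nr)
open Vale.Agent.P167.H166 (bxx mem_bxx)
open Vale.Agent.P167.H975 (TX TX_loc)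
open Vale.Agent.P167.H398.Q (macro_F)
open Vale.Agent.P167.H601.LG
open Vale.Agent.P167.H601.S2

variable {θ : ℝ}

/-- The trivial extra factor. -/
theorem extI_one {Q : ℝ} (D : Finset (ℤ × ℤ)) (η : Cfg) (cI : ℤ × ℤ) (E : ℕ) (K r : ℤ) :
    ExtI Q D η (fun _ _ => 1) cI 1 E K 1 r where
  one := le_rfl
  nn := fun _ _ => zero_le_one
  mono := fun _ _ _ _ _ _ => le_rfl
  loc := fun _ _ _ _ _ _ => rfl
  ext := fun r' r'' _ _ _ _ F _ _ => by simp only [one_mul]; exact le_rfl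

theorem TT_one (θ β : ℝ) {N : ℕ} (q : ZMod N → ℤ × ℤ) (D : Finset (ℤ × ℤ)) (k : ℕ)
    (τ : ℕ → ℤ) (P : Finset ℕ) (r : ℤ) :
    TT θ β q D k τ (fun _ _ => 1) P r = PT θ β q D k τ P r := by
  funext ω
  rw [TT_eq, one_mul]

/-- A far site. -/
theorem exists_far {n N : ℕ} {q : ZMod N → ℤ × ℤ} {τ : ℕ → ℤ} (hG : GeoN n N q τ) (x : ℤ) :
    ∃ c : ℤ × ℤ, ∀ j : ℕ, j ≤ N → x < nm (q (j : ZMod N) - c) := by
  refine ⟨((q 0).1 + (N + |x| + 1), (q 0).2), fun j hj => ?_⟩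
  have h1 := hG.lip j 0
  have e : ((0 : ℕ) : ZMod N) = 0 := Nat.cast_zero
  have e' : ((0 : ℕ) : ℤ) = 0 := Nat.cast_zero
  rw [e, e', sub_zero, Nat.abs_cast] at h1
  have h2 : |(q (j : ZMod N)).1 - (q 0).1| ≤ nm (q (j : ZMod N) - q 0) := le_max_left _ _
  have h3 : |(q (j : ZMod N)).1 - ((q 0).1 + (N + |x| + 1))| ≤
      nm (q (j : ZMod N) - ((q 0).1 + (N + |x| + 1), (q 0).2)) := le_max_left _ _
  have h4 : (j : ℤ) ≤ N := by exact_mod_cast hj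
  have h5 := le_abs_self x
  have h6 := abs_le.1 h2
  have h7 := abs_le.1 (le_refl |(q (j : ZMod N)).1 - ((q 0).1 + (N + |x| + 1))|)
  omega

section off

variable {n N L k : ℕ} {m₀ : ℤ} {q : ZMod N → ℤ × ℤ} {D : Finset (ℤ × ℤ)} {τ : ℕ → ℤ}
  {η : Cfg} {β c0 s : ℝ} {P : Finset ℕ} {r Z : ℤ}

/-- The product does not read the annuli around the points. -/
theorem PT_offR (hf : ∀ i ∈ P, ∀ j ∈ P, i ≠ j → 4 * Z < nm (q (i : ZMod N) - q (j : ZMod N)))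
    {a : ℕ} (ha : a ∈ P) (hr : r ≤ Z) (hZ : 0 ≤ Z) {x y : ℝ} (hx : (r : ℝ) ≤ x)
    (hy : y ≤ 2 * Z) : Off D (Rg (q (a : ZMod N)) x y) (PT θ β q D k τ P r) := by
  intro ω ω' hh
  unfold PT
  refine prod_congr rfl fun b hb => ?_
  refine TX_loc _ _ _ _ ω ω' fun v hv => hh v ?_
  rintro ⟨-, hv1, hv2⟩
  have h5 := nm_of_Bq (mem_inter.1 hv).1
  by_cases hab : a = b
  · subst hab
    have h6 : (nm (v - q (a : ZMod N)) : ℝ) ≤ r := by exact_mod_cast h5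
    linarith
  · have h6 := hf a ha b hb hab
    have h7 := nm_tri' (q (a : ZMod N)) v (q (b : ZMod N))
    have h8 := nm_comm (q (a : ZMod N)) v
    have h10 : (nm (v - q (a : ZMod N)) : ℝ) ≤ 2 * Z := hv2.trans hy
    have h11 : nm (v - q (a : ZMod N)) ≤ 2 * Z := by exact_mod_cast h10
    omega

end off

/-- **The moments of the numbers of the strands between the radii `r` and `Z` at the points of `P`**,
with respect to the product of the local factors of radius `r`. -/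
theorem exists_mom (h0 : 0 < θ) (h1 : θ ≤ Real.pi / 3) (hR : RSW (2 * Real.cos θ)) (ms : ℕ)
    {c0 : ℝ} (hc0 : 0 < c0) (hc1 : c0 ≤ 1) {s : ℝ} (hs : 0 < s)
    (hs0 : 1 / Real.sin θ + 1 / Real.sin (2 * θ) ≤ Real.exp (s / 2))
    (hs1 : Real.exp (-(s / 4)) ≤ c0) {Λ : ℝ} (hΛ : 0 ≤ Λ) :
    ∃ K Y : ℝ, 0 < Y ∧ ∀ {n N L k : ℕ} {m₀ : ℤ} {q : ZMod N → ℤ × ℤ} {D : Finset (ℤ × ℤ)}
      {τ : ℕ → ℤ} {η : Cfg} {β : ℝ}, Sit n N L m₀ q D k τ η → ∀ P : Finset ℕ,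
      (∀ j ∈ P, j < N ∧ Spe τ k j) → P.card ≤ ms → ∀ r Z : ℤ, K ≤ r → 1 ≤ r → r ≤ Z →
      (Z : ℝ) ≤ Λ * r → 24 * Z < n → 16 * Z < L → 4 * Z ≤ m₀ → Wl θ β q D k τ P c0 Z →
      ∃ Nf : ℕ → Cfg → ℕ, (∀ (i : ℕ) (ω : Cfg), MajA (Bq (q (i : ZMod N)) Z) ((r : ℝ) / 16) ω (Nf i ω)) ∧
        (∀ (i : ℕ) (ω ω' : Cfg), (∀ v, nm (v - q (i : ZMod N)) ≤ 2 * Z → ω v = ω' v) →
          Nf i ω = Nf i ω') ∧
        ∀ P' ⊆ P, Ex (2 * Real.cos θ) D η (fun ω => PT θ β q D k τ P' r ω *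
          Real.exp (s * ((∑ i ∈ P', Nf i ω : ℕ) : ℝ))) ≤
            Y * Ex (2 * Real.cos θ) D η (PT θ β q D k τ P' r) := by
  have hcos : 1 / 2 ≤ Real.cos θ := by
    rw [← Real.cos_pi_div_three]
    exact Real.cos_le_cos_of_nonneg_of_le_pi h0.le (by linarith [Real.pi_pos]) h1
  have hQ : 1 ≤ 2 * Real.cos θ := by linarith
  have hQ0 : 0 < 2 * Real.cos θ := by linarith
  obtain ⟨e1, he1, H⟩ := num_pt hQ hR
  obtain ⟨E0, hE0⟩ := exists_nat_ge (16 * (1 + |2 * s|) / e1)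
  obtain ⟨E, hE, hE2, H2⟩ := mom_main h0 h1 hR ms hc0 hc1 hs hs0 hs1 E0
  obtain ⟨K, hK0, hK1, H2⟩ := H2 0
  obtain ⟨C, ρ0, hC, hρ0, H⟩ := H (1 / 16) Λ (2 * s) (by norm_num) hΛ
  obtain ⟨Y, hY1, H2⟩ := H2 1 (max 1 C ^ ms) le_rfl (by positivity)
  refine ⟨max ρ0 (E * K), Y ^ 4, by positivity, ?_⟩
  intro n N L k m₀ q D τ η β hS P hP hPc r Z hKr hr1 hrZ hZΛ hZn hZL hZm hw
  have hρr : ρ0 ≤ r := (le_max_left _ _).trans hKr
  have hEr : (E : ℤ) * K ≤ r := by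
    have : ((E * K : ℤ) : ℝ) ≤ r := by
      push_cast
      exact (le_max_right _ _).trans hKr
    exact_mod_cast this
  have hr1' : (1 : ℝ) ≤ r := by exact_mod_cast hr1
  have hrZ' : (r : ℝ) ≤ Z := by exact_mod_cast hrZ
  have hZ1 : 1 ≤ Z := hr1.trans hrZ
  have hZ1' : (1 : ℝ) ≤ Z := by exact_mod_cast hZ1
  set ea : ℝ := e1 * (1 / 16) / (1 + |2 * s|) * r with hea
  set eb : ℝ := 1 / 16 * (r : ℝ) + Z with heb
  have hebZ : eb ≤ 2 * Z := by rw [heb]; linarith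
  have num : ∀ i : ℕ, ∃ Nf : Cfg → ℕ,
      (∀ ω ω' : Cfg, (∀ v, Rg (q (i : ZMod N)) ea eb v → ω v = ω' v) → Nf ω = Nf ω') ∧
      (∀ ω, MajA (Bq (q (i : ZMod N)) Z) ((r : ℝ) / 16) ω (Nf ω)) ∧
      ∀ G : Cfg → ℝ, (∀ ω, 0 ≤ G ω) → Off D (Rg (q (i : ZMod N)) ea eb) G →
        Ex (2 * Real.cos θ) D η (fun ω => G ω * Real.exp (2 * s * (Nf ω : ℝ))) ≤
          C * Ex (2 * Real.cos θ) D η G := by
    intro i
    obtain ⟨Nf, n1, n2, n3⟩ := H r hρr (q (i : ZMod N)) Z hZΛ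
    refine ⟨Nf, n1, fun ω => ?_, fun G hG0 hG => ?_⟩
    · have := n2 ω
      rwa [one_div, inv_mul_eq_div] at this
    · refine n3 D η hS.good (fun y a ha ha' hy => ?_) G hG0 hG
      have h6 : (a : ℝ) ≤ r := by linarith
      have h7 : (nm (y - q (i : ZMod N)) : ℝ) ≤ 2 * Z := hy.trans hebZ
      have h6' : a ≤ r := by exact_mod_cast h6
      have h7' : nm (y - q (i : ZMod N)) ≤ 2 * Z := by exact_mod_cast h7
      refine hS.one y a ha (by omega) ?_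
      obtain ⟨v, hv, hv'⟩ := exists_near hS.poly hS.enc (i : ZMod N)
      refine ⟨v, hv, ?_⟩
      have h8 := nm_tri' y (q (i : ZMod N)) v
      omega
  choose Nf n1 n2 n3 using num
  refine ⟨Nf, n2, fun i ω ω' hω => n1 i ω ω' fun v hv => hω v ?_, fun P' hP' => ?_⟩
  · have h3 : (nm (v - q (i : ZMod N)) : ℝ) ≤ 2 * Z := hv.2.trans hebZ
    exact_mod_cast h3
  have hfar : ∀ i ∈ P', ∀ j ∈ P', i ≠ j → 4 * Z < nm (q (i : ZMod N) - q (j : ZMod N)) :=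
    fun i hi j hj hne => spe_far hS.geo hS.sep (hP i (hP' hi)).1 (hP j (hP' hj)).1 hne
      (hP i (hP' hi)).2 (hP j (hP' hj)).2 (by omega) (by omega)
  have hwP : Wl θ β q D k τ P' c0 Z := fun j hj => hw j (hP' hj)
  have hE0' : 0 ≤ r := by omega
  have hrE : r / E ≤ Z := (Int.ediv_le_self _ hE0').trans hrZ
  have hrE' : ((r / E : ℤ) : ℝ) ≤ ea := by
    have hEpos : (0 : ℝ) < E := by
      have : 0 < E := by omega
      exact_mod_cast this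
    have h3 : ((E : ℤ) : ℝ) * ((r / E : ℤ) : ℝ) ≤ (r : ℝ) := by
      exact_mod_cast Int.mul_ediv_self_le (x := r) (k := (E : ℤ)) (by omega)
    rw [Int.cast_natCast] at h3
    have h4 : 16 * (1 + |2 * s|) / e1 ≤ E := hE0.trans (by exact_mod_cast hE)
    have hs2 : 0 < 1 + |2 * s| := by positivity
    rw [div_le_iff₀ he1] at h4
    have h5 : (r : ℝ) ≤ E * ea := by
      rw [hea]
      have h6 : (E : ℝ) * (e1 * (1 / 16) / (1 + |2 * s|) * r) =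
          (E * e1) / (16 * (1 + |2 * s|)) * r := by
        field_simp
      rw [h6]
      have h7 : 1 ≤ (E * e1) / (16 * (1 + |2 * s|)) := by
        rw [le_div_iff₀ (by positivity), one_mul]
        exact h4
      nlinarith
    exact le_of_mul_le_mul_left (h3.trans h5) hEpos
  have hT0 : ∀ ω, 0 ≤ PT θ β q D k τ P' (r / E) ω := fun ω => (hwP.mono hrE).pnonneg hc0.le ω
  have hmom := mom_prod (Q := 2 * Real.cos θ) (D := D) (η := η) P' Nf
    (T := PT θ β q D k τ P' (r / E)) hT0 (R := fun i => Rg (q (i : ZMod N)) ea eb) (C := C)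
    (s := 2 * s) hC.le (fun a ha => PT_offR hfar ha hrE (by omega) hrE' hebZ)
    (fun a _ => n1 a)
    (fun a ha b hb hab v hv hv' => by
      have h6 := hfar a ha b hb hab
      have h7 := nm_tri' (q (a : ZMod N)) v (q (b : ZMod N))
      have h8 := nm_comm (q (a : ZMod N)) v
      have h10 : (nm (v - q (a : ZMod N)) : ℝ) ≤ 2 * Z := hv.2.trans hebZ
      have h11 : nm (v - q (a : ZMod N)) ≤ 2 * Z := by exact_mod_cast h10
      have h12 : (nm (v - q (b : ZMod N)) : ℝ) ≤ 2 * Z := hv'.2.trans hebZ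
      have h13 : nm (v - q (b : ZMod N)) ≤ 2 * Z := by exact_mod_cast h12
      omega)
    (fun a _ => n3 a)
  have hcard : P'.card ≤ ms := (card_le_card hP').trans hPc
  have hmom' : Ex (2 * Real.cos θ) D η (fun ω => PT θ β q D k τ P' (r / E) ω *
      Real.exp (2 * s * ((∑ i ∈ P', Nf i ω : ℕ) : ℝ))) ≤
        max 1 C ^ ms * Ex (2 * Real.cos θ) D η (PT θ β q D k τ P' (r / E)) := by
    refine hmom.trans (mul_le_mul_of_nonneg_right ?_ (Ex_nonneg hQ0 fun _ _ => hT0 _))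
    exact (pow_le_pow_left₀ hC.le (le_max_right _ _) _).trans
      (pow_le_pow_right₀ (le_max_left _ _) hcard)
  obtain ⟨cI, hcI⟩ := exists_far hS.geo ((1 + 4) * r)
  have key := (H2 hS P' (fun j hj => hP j (hP' hj)) hcard r hEr (by omega) (by omega) (by omega)
    (hwP.mono hrZ) (fun _ _ => 1) cI 1 (extI_one D η cI E K r)
    (fun j hj => hcI j (hP j (hP' hj)).1.le)
    (fun ω => ((∑ i ∈ P', Nf i ω : ℕ) : ℝ)) (fun ω => Nat.cast_nonneg _)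
    (by rw [TT_one]; exact hmom')).1
  rw [TT_one] at key
  exact key

end Vale.Agent.P167.H945.L
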